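import Vale.Agent.P121.MathlibUsed

open MeasureTheory Set
open scoped ENNReal

namespace Vale.Agent.P121

variable {E : Type*} [NormedAddCommGroup E] [MeasurableSpace E]

/-- The Coulomb cost of three points; it is `∞` when two of the points coincide. -/
noncomputable def coulombCost (p : E × E × E) : ℝ≥0∞ :=
  (edist p.1 p.2.1)⁻¹ + (edist p.1 p.2.2)⁻¹ + (edist p.2.1 p.2.2)⁻¹

/-- `π` is a measure on triples whose three coordinate marginals all equal `μ`. -/
def IsCoupling (μ : Measure E) (π : Measure (E × E × E)) : Prop :=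
  π.map (fun p => p.1) = μ ∧ π.map (fun p => p.2.1) = μ ∧ π.map (fun p => p.2.2) = μ

/-- The Kantorovich value of the three-marginal Coulomb problem. -/
noncomputable def kantorovich (μ : Measure E) : ℝ≥0∞ :=
  ⨅ (π : Measure (E × E × E)) (_ : IsCoupling μ π), ∫⁻ p, coulombCost p ∂π

/-- `(Id, T₂, T₃)_# μ` is a Monge plan. -/
def IsMongePair (μ : Measure E) (T₂ T₃ : E → E) : Prop :=
  Measurable T₂ ∧ Measurable T₃ ∧ μ.map T₂ = μ ∧ μ.map T₃ = μ

/-- The cost of the Monge plan `(Id, T₂, T₃)_# μ`. -/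
noncomputable def mongeCost (μ : Measure E) (T₂ T₃ : E → E) : ℝ≥0∞ :=
  ∫⁻ x, coulombCost (x, T₂ x, T₃ x) ∂μ

/-- `μ` admits an optimal Monge plan. -/
def HasOptimalMongePlan (μ : Measure E) : Prop :=
  ∃ T₂ T₃ : E → E, IsMongePair μ T₂ T₃ ∧ mongeCost μ T₂ T₃ = kantorovich μ

end Vale.Agent.P121
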