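import Vale.Agent.P121.MathlibUsed

open MeasureTheory Set
open scoped ENNReal

namespace Vale.Agent.P121

variable {E : Type*} [NormedAddCommGroup E]

/-- The Coulomb cost of `N` points; it is `∞` when two of the points coincide. -/
noncomputable def coulombN {N : ℕ} (x : Fin N → E) : ℝ≥0∞ :=
  ∑ i, ∑ j ∈ Finset.Ioi i, (edist (x i) (x j))⁻¹

/-- `π` is a measure on `N`-tuples whose `N` coordinate marginals all equal `μ`. -/
def IsCouplingN [MeasurableSpace E] {N : ℕ} (μ : Measure E) (π : Measure (Fin N → E)) : Prop :=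
  ∀ i, π.map (fun x => x i) = μ

/-- The Kantorovich value of the `N`-marginal Coulomb problem. -/
noncomputable def kantorovichN [MeasurableSpace E] (N : ℕ) (μ : Measure E) : ℝ≥0∞ :=
  ⨅ (π : Measure (Fin N → E)) (_ : IsCouplingN μ π), ∫⁻ x, coulombN x ∂π

/-- `(T_0, …, T_{N-1})_# μ` with `T_0 = Id` is a Monge plan. -/
def IsMongeN [MeasurableSpace E] {N : ℕ} (μ : Measure E) (T : Fin N → E → E) : Prop :=
  (∀ i : Fin N, (i : ℕ) = 0 → T i = id) ∧ ∀ i, Measurable (T i) ∧ μ.map (T i) = μ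

/-- The cost of the Monge plan `(T_0, …, T_{N-1})_# μ`. -/
noncomputable def mongeCostN [MeasurableSpace E] {N : ℕ} (μ : Measure E) (T : Fin N → E → E) :
    ℝ≥0∞ :=
  ∫⁻ x, coulombN (fun i => T i x) ∂μ

/-- `μ` admits an optimal Monge plan for the `N`-marginal Coulomb problem. -/
def HasOptimalMongePlanN [MeasurableSpace E] (N : ℕ) (μ : Measure E) : Prop :=
  ∃ T : Fin N → E → E, IsMongeN μ T ∧ mongeCostN μ T = kantorovichN N μ

end Vale.Agent.P121
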